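import Vale.Agent.P106.U.H336.Sw
import Vale.Agent.P106.U.H404.Kd3
import Vale.Agent.P106.U.S3.F2
import Vale.Agent.P106.U.H833.Zon
import Vale.Agent.P106.U.H652.Ev3

/-!
# P106 / U / H336 : the exceptional levels over the field `S3.F2` (helper336), kinds of helper404

* `rg_of` : `Rg` from `S3.F2`.
* `not_swl` : what a level outside `SwL L` is;  `swl_win` : a level whose window meets no exceptional level.
* `idO`, `idK`, `idP` : the indices of the levels outside `SwL L` are in `IdO`, `IdK`, `IdP`, with room;  `pu_mixed`, `pu_bW` :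
  helper833's regimes (`Wd < B`);  `one_reg` : one regime along indices;  **`at_of`** : the a-step `d ≤ L` levels later is
  in `At'`.
* **`swl_f2`** : `m #SwL ≤ (L + 1) (4 + (L + 1) (2 K1 + 3)) h / B + (L + 1) (L + 2) m`;  `ev_sw` : the numbers.
-/

set_option autoImplicit false

namespace Vale.Agent.P106.U.H336

open Finset Vale.Agent.P127 Vale.Agent.P127.Stk
open Vale.Agent.P106.U.S3 (Run Pf F2 IdO IdK IdP At At' lv)
open Vale.Agent.P106.U.H833 (aN kN fN RN)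
open Vale.Agent.P106.U.H404 (kd3)

section

variable {Ω : Type} [Fintype Ω] {τ υ : Type} {R : Run Ω τ υ} {p : Run.Num} {B cS cV : ℕ} {rk0 : ℕ → ℕ} {Vs Xs : Finset ℕ}

theorem not_swl {L z : ℕ} (hz : z ≤ aN R R.n) (h : z ∉ SwL R B Vs Xs L) :
    z ≠ 0 ∧ z ∉ Xs ∧ z + 1 ∉ Xs ∧ (z ∈ Vs ↔ z + 1 ∈ Vs) ∧ (ind R L z).card ≤ B := by
  have h1 := H404.sw_evt hz h
  unfold Evt at h1
  push Not at h1
  obtain ⟨g0, g1, g2, g3, g4, g5⟩ := h1
  refine ⟨g0, g1, g2, ⟨g3, fun g => ?_⟩, g5⟩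
  by_contra hcon
  exact g4 hcon g

/-- kind 0 outside the exceptional levels: an old level -/
theorem kd3_zero {L z : ℕ} (hz : z ≤ aN R R.n) (hS : z ∉ SwL R B Vs Xs L) (h : kd3 R Vs Xs z = 0) :
    z ≠ 0 ∧ z ∉ Vs ∧ z ∉ Xs := by
  obtain ⟨g0, g1, g2, g4, _⟩ := not_swl hz hS
  refine ⟨g0, fun hV => ?_, g1⟩
  unfold kd3 at h
  rw [if_pos ⟨hV, g4.1 hV, g1, g2, g0⟩] at h
  split_ifs at h with h2
  · exact absurd h (by decide)
  · exact absurd h (by decide)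

theorem ge_one (hP : R.Path p) {k : ℕ} (h : aN R k ≠ 0) : 1 ≤ k := by
  rcases Nat.eq_zero_or_pos k with h5 | h5
  · exfalso
    apply h
    rw [h5]
    unfold aN
    rw [hP.a0, Nat.zero_div]
  · exact h5

/-- one regime along indices with levels outside `SwL` -/
theorem Rg.one_reg (H : Rg R B cS cV rk0 Vs Xs) (hP : R.Path p) {L i j : ℕ} (hij : i ≤ j) (jn : j ≤ R.n)
    (hS : ∀ z, aN R i ≤ z → z ≤ aN R j → z ∉ SwL R B Vs Xs L) : KR R i ↔ KR R j := by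
  have hmi : aN R i ≤ aN R j := H833.aN_mono hP hij (by omega)
  have hmj : aN R j ≤ aN R R.n := H833.aN_mono hP jn (by omega)
  have h0 := (not_swl (hmi.trans hmj) (hS _ le_rfl hmi)).1
  exact H.along hP (ge_one hP h0) hij jn fun z h1 h2 => (not_swl (h2.trans hmj) (hS z h1 h2)).2.1

/-- **the a-step some levels later** -/
theorem at_of (hP : R.Path p) {L k i d : ℕ} (hS : aN R k ∉ SwL R B Vs Xs L) (hki : k < i) (hi : i ≤ R.n)
    (hA : R.IsA i) (ha : aN R i = aN R k + d) (hd : d ≤ L) : At R p B d k i ∧ i ∈ At' R p B d k := by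
  classical
  have hkn : aN R k ≤ aN R R.n := H833.aN_mono hP (by omega) (by omega)
  have h1 := (not_swl hkn hS).2.2.2.2
  have h3 : Icc k i ⊆ ind R L (aN R k) := by
    intro j hj
    rw [mem_Icc] at hj
    unfold ind
    rw [mem_filter, mem_range]
    have g1 := H833.aN_mono hP hj.1 (by omega)
    have g2 := H833.aN_mono hP hj.2 (by omega)
    exact ⟨by omega, g1, by omega⟩
  have h4 := card_le_card h3
  rw [Nat.card_Icc] at h4
  have h5 : At R p B d k i := by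
    refine ⟨hki, by omega, by omega, ?_, hA⟩
    rw [H833.lev_a hP (i := i) (by omega), H833.lev_a hP (i := k) (by omega), ha]
    ring
  refine ⟨h5, ?_⟩
  unfold At'
  rw [mem_filter, mem_range]
  exact ⟨by omega, h5⟩

/-- helper833's margin from the change of the regime -/
theorem Rg.not_mixed (H : Rg R B cS cV rk0 Vs Xs) (hP : R.Path p) {k Wd : ℕ} (k1 : 1 ≤ k) (kn : k ≤ R.n)
    (hX : aN R k ∉ Xs) (hWS : R.m * (R.b1 + Wd) < cS) (hWV : R.m * (R.b1 + Wd) < cV) (hW : Wd < 2 * B) :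
    ¬ H833.mixed R R.b1 Wd k := by
  have h1 := H.cases k1 kn hX
  have ek := H833.lev_k hP (i := k) (by omega)
  have ef := H833.lev_f hP (i := k) (by omega)
  have hm := hP.m1
  rintro ⟨m1, m2⟩
  rcases h1 with ⟨_, h2, h3⟩ | ⟨h2, _⟩
  · have h4 : R.m * (R.b1 + Wd) + R.C.rk k < R.C.rf k := by
      by_cases hV : aN R k ∈ Vs
      · have := h3 hV
        omega
      · have := h2 hV
        omega
    have h5 : R.m * (kN R k + R.b1 + Wd) < R.m * fN R k := by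
      have e : R.m * (kN R k + R.b1 + Wd) = R.m * (R.b1 + Wd) + R.m * kN R k := by ring
      omega
    have h6 := Nat.lt_of_mul_lt_mul_left h5
    omega
  · have h5 : R.m * (fN R k + 2 * B) ≤ R.m * (R.b1 + kN R k) := by
      have e : R.m * (fN R k + 2 * B) = R.m * fN R k + 2 * (R.m * B) := by ring
      have e2 : R.m * (R.b1 + kN R k) = R.m * R.b1 + R.m * kN R k := by ring
      omega
    have h6 := Nat.le_of_mul_le_mul_left h5 hm
    omega

end

/-! ### over the record -/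

section rec

variable {Ω : Type} [Fintype Ω] {τ υ π : Type} {R : Run Ω τ υ} {p : Run.Num} {K : ℝ} {B bS bV : ℕ} {F : Pf R π}
  {Vs Xs : Finset ℕ}

/-- the regimes from the field -/
theorem rg_of (H : F2 R p K B bS bV F Vs Xs) (hm : 1 ≤ R.m) (hB : 1 ≤ B) : Rg R B bS bV F.rk0 Vs Xs := by
  have h1 := H.loS
  have h2 := H.loV
  have h3 : R.m * R.b1 + 1 ≤ R.m * (R.b1 + B) := by
    rw [Nat.mul_add]
    have := Nat.mul_pos hm hB
    omega
  exact ⟨hB, F.l0, by omega, by omega, H.regS, H.reg⟩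

/-- indices of the old levels -/
theorem idO (H : F2 R p K B bS bV F Vs Xs) {L k : ℕ} (hP : R.Path p) (kn : k ≤ R.n)
    (hS : aN R k ∉ SwL R B Vs Xs L) (h0 : kd3 R Vs Xs (aN R k) = 0) : 1 ≤ k ∧ k ∈ IdO R Vs Xs ∧
      (bS + R.C.rk k ≤ R.C.rf k ∨ R.C.rf k + 2 * (R.m * B) ≤ R.m * R.b1 + R.C.rk k) := by
  classical
  obtain ⟨g0, g1, g2⟩ := kd3_zero (H833.aN_mono hP kn (by omega)) hS h0
  have k1 := ge_one hP g0
  refine ⟨k1, ?_, H.regS k k1 kn g1 g2⟩
  unfold IdO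
  rw [mem_filter, mem_Icc]
  exact ⟨⟨k1, kn⟩, g1, g2⟩

/-- indices of the young levels of the kappa regime -/
theorem idK (H : F2 R p K B bS bV F Vs Xs) {k : ℕ} (hP : R.Path p) (hB : 1 ≤ B) (kn : k ≤ R.n)
    (h1 : kd3 R Vs Xs (aN R k) = 1) : 1 ≤ k ∧ k ∈ IdK R Vs Xs ∧ KR R k ∧ bV + R.C.rk k ≤ R.C.rf k := by
  classical
  obtain ⟨⟨g1, _, g2, _, g0⟩, g4⟩ := H404.kd3_one h1
  have k1 := ge_one hP g0
  have hR := rg_of H hP.m1 hB
  have h2 := (hR.kap_iff hP k1 kn g2).1 g4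
  refine ⟨k1, ?_, h2, ?_⟩
  · unfold IdK
    rw [mem_filter, mem_Icc]
    exact ⟨⟨k1, kn⟩, g1, g2, h2⟩
  · rcases hR.cases k1 kn g2 with h3 | h3
    · exact h3.2.2 g1
    · unfold KR at h2
      omega

/-- indices of the young levels of the deep phi regime -/
theorem idP (H : F2 R p K B bS bV F Vs Xs) {k : ℕ} (hP : R.Path p) (hB : 1 ≤ B) (kn : k ≤ R.n)
    (h1 : kd3 R Vs Xs (aN R k) = 2) : 1 ≤ k ∧ k ∈ IdP R F B Vs Xs ∧ ¬ KR R k ∧
      R.C.rf k + 2 * (R.m * B) ≤ R.m * R.b1 + F.rk0 k := by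
  classical
  obtain ⟨⟨g1, _, g2, _, g0⟩, g4⟩ := H404.kd3_two h1
  have k1 := ge_one hP g0
  have hR := rg_of H hP.m1 hB
  have h2 : ¬ KR R k := fun h => g4 ((hR.kap_iff hP k1 kn g2).2 h)
  have h3 : R.C.rf k + 2 * (R.m * B) ≤ R.m * R.b1 + F.rk0 k := by
    rcases hR.cases k1 kn g2 with h3 | h3
    · exact absurd h3.1 h2
    · exact h3.2 g1
  refine ⟨k1, ?_, h2, h3⟩
  unfold IdP
  rw [mem_filter, mem_Icc]
  exact ⟨⟨k1, kn⟩, g1, g2, h3⟩

/-- helper833's form: no mixed state, `Wd < B` -/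
theorem pu_mixed (H : F2 R p K B bS bV F Vs Xs) (hP : R.Path p) (hB : 1 ≤ B) {L k Wd : ℕ} (hW : Wd < B) (kn : k ≤ R.n)
    (hS : aN R k ∉ SwL R B Vs Xs L) : ¬ H833.mixed R R.b1 Wd k := by
  have g := not_swl (H833.aN_mono hP kn (by omega)) hS
  have h1 := H.loS
  have h2 := H.loV
  have h3 : R.m * (R.b1 + Wd) < R.m * (R.b1 + B) := (Nat.mul_lt_mul_left hP.m1).2 (by omega)
  exact (rg_of H hP.m1 hB).not_mixed hP (ge_one hP g.1) kn g.2.1 (by omega) (by omega) (by omega)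

/-- kappa regime at the cap `b1`: also at the later cap (old levels) -/
theorem pu_bW (H : F2 R p K B bS bV F Vs Xs) (hP : R.Path p) {L k Wd : ℕ} (kn : k ≤ R.n)
    (hS : aN R k ∉ SwL R B Vs Xs L) (h0 : kd3 R Vs Xs (aN R k) = 0) (hk : H833.isKap R R.b1 Wd k) :
    R.C.rk k + bS ≤ R.C.rf k := by
  obtain ⟨k1, _, h1⟩ := idO H hP kn hS h0
  have ek := H833.lev_k hP (i := k) (by omega)
  have ef := H833.lev_f hP (i := k) (by omega)
  rcases h1 with h1 | h1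
  · omega
  · exfalso
    unfold H833.isKap at hk
    have h5 : R.m * (kN R k + R.b1) ≤ R.m * fN R k := Nat.mul_le_mul_left _ (by omega)
    have h6 : R.m * (kN R k + R.b1) < R.m * fN R k := (Nat.mul_lt_mul_left hP.m1).2 (by omega)
    have e : R.m * (kN R k + R.b1) = R.m * R.b1 + R.m * kN R k := by ring
    omega

/-- the same at the young levels -/
theorem pu_bV (H : F2 R p K B bS bV F Vs Xs) (hP : R.Path p) (hB : 1 ≤ B) {k : ℕ} (kn : k ≤ R.n)
    (h1 : kd3 R Vs Xs (aN R k) = 1) : R.C.rk k + bV ≤ R.C.rf k := by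
  have := (idK H hP hB kn h1).2.2.2
  omega

/-- **few exceptional levels**, from the field -/
theorem swl_f2 (H : F2 R p K B bS bV F Vs Xs) (hP : R.Path p) {K1 : ℝ} (hq : (R.q : ℝ) ≤ R.r0 + (K1 + 1) * R.h) (L : ℕ)
    (hB : 1 ≤ B) :
    (R.m : ℝ) * (SwL R B Vs Xs L).card ≤
      (L + 1) * (4 + (L + 1) * (2 * K1 + 3)) * (R.h / B) + (L + 1) * (L + 2) * R.m :=
  SwL_le hP hq L hB H.runs H.xs

end rec

/-- the numbers -/
theorem ev_sw (C C' : ℝ) {κ : ℝ} (hκ : 0 < κ) : H652.Ev3 fun m B h => C * ((h : ℝ) / B) + C' * m ≤ κ * h := by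
  have hκ2 : 0 < κ / 2 := by linarith
  refine H652.Ev3.intro ⟨0, fun m _ => ?_⟩
  obtain ⟨B0, hB0⟩ := Filter.eventually_atTop.1 (H652.ev_div C hκ2)
  refine ⟨B0, fun B hB => ?_⟩
  obtain ⟨h0, hh0⟩ := Filter.eventually_atTop.1 (H652.ev_con (C' * m) hκ2)
  refine ⟨h0, fun h hh => ?_⟩
  have h1 := hB0 B hB
  have h2 := hh0 h hh
  have h3 : C * ((h : ℝ) / B) = C / B * h := by ring
  have h4 := mul_le_mul_of_nonneg_right h1 (Nat.cast_nonneg h : (0 : ℝ) ≤ h)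
  rw [h3]
  linarith

/-- **the set is small** : `κ` any accuracy -/
theorem ev_swl (L : ℕ) (K1 : ℝ) {κ : ℝ} (hκ : 0 < κ) : H652.Ev3 fun m B h => ∀ {Ω : Type} [Fintype Ω] {τ υ π : Type}
    (R : Run Ω τ υ) (p : Run.Num) (K : ℝ) (bS bV : ℕ) (F : Pf R π) (Vs Xs : Finset ℕ), F2 R p K B bS bV F Vs Xs →
    R.Path p → R.m = m → R.h = h → (R.q : ℝ) ≤ R.r0 + (K1 + 1) * R.h →
    (m : ℝ) * Real.log 2 * (SwL R B Vs Xs L).card ≤ κ * h := by
  have h1 := ev_sw ((L + 1) * (4 + (L + 1) * (2 * K1 + 3))) ((L + 1) * (L + 2)) hκ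
  have h2 : H652.Ev3 fun _ B _ => 1 ≤ B := H652.Ev3.of_B' fun _ => H652.ev_nat 1
  refine h1.mono2 h2 fun m B h g1 hB Ω _ τ υ π R p K bS bV F Vs Xs H hP em eh hq => ?_
  have g2 := swl_f2 H hP hq L hB
  rw [em, eh] at g2
  have g3 : (m : ℝ) * Real.log 2 * (SwL R B Vs Xs L).card ≤ (m : ℝ) * (SwL R B Vs Xs L).card := by
    have l1 : Real.log 2 ≤ 1 := by
      have := Real.log_two_lt_d9
      linarith
    have l2 : (0 : ℝ) ≤ (m : ℝ) * (SwL R B Vs Xs L).card := by positivity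
    have : (m : ℝ) * Real.log 2 * (SwL R B Vs Xs L).card = (m : ℝ) * (SwL R B Vs Xs L).card * Real.log 2 := by ring
    rw [this]
    nlinarith
  linarith

end Vale.Agent.P106.U.H336
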