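import Vale.Agent.P106.U.MIC.Stage
import Vale.Agent.P106.U.H336.SwF

/-!
# P106 / U / H336 : the exceptional levels over the situation of `MIC/Stage.lean` (helper336)

* `rg`, `path`, `one_m` : facts of the situation.
* **`sw_suf`**, **`sw_suf'`** : `m #SwL ≤ κ h`, also together with a bounded number of levels per window end.
-/

set_option autoImplicit false

namespace Vale.Agent.P106.U.H336

open Finset Vale.Agent.P127 Vale.Agent.P127.Stk Vale.Agent.P127.U Vale.Agent.P106.W Vale.Agent.P106.K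
open Vale.Agent.P106.U.S3 Vale.Agent.P106.U.S5 Vale.Agent.P106.U.MIC
open Vale.Agent.P106.U.H833 (aN RN)

variable {η : ℝ} {x : ℕ} {σ : Cst} {ε : ℝ} {ρ : Thr} {g : Gv} {m B h : ℕ}

theorem path (s : St η x σ ε ρ g m B h) : s.R.Path s.pn := s.run.ok.pth

theorem one_m (s : St η x σ ε ρ g m B h) : 1 ≤ s.R.m := (path s).m1

/-- the regimes -/
theorem rg (s : St η x σ ε ρ g m B h) (hB : 1 ≤ B) : Rg s.R B s.bS s.bV s.F.rk0 s.Vs s.Xs :=
  rg_of s.f2 (one_m s) hB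

/-- the bound for one situation -/
theorem sw_le (s : St η x σ ε ρ g m B h) (L : ℕ) (hB : 1 ≤ B) : (m : ℝ) * (SwL s.R B s.Vs s.Xs L).card ≤
    (L + 1) * (4 + (L + 1) * (2 * σ.K1 + 3)) * ((h : ℝ) / B) + (L + 1) * (L + 2) * m := by
  have hq : (s.R.q : ℝ) ≤ s.R.r0 + (σ.K1 + 1) * s.R.h := by
    rw [s.run.hq, s.run.hr0, s.run.hh]
    exact s.run.qr
  have := swl_f2 s.f2 (path s) hq L hB
  rw [s.run.hm, s.run.hh] at this
  exact this

/-- **the exceptional levels are few** -/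
theorem sw_suf (η : ℝ) (x : ℕ) (σ : Cst) (ε : ℝ) (ρ : Thr) {κ : ℝ} (hκ : 0 < κ) (L : ℕ) : Suf σ ε fun g m B h =>
    ∀ s : St η x σ ε ρ g m B h, (m : ℝ) * (SwL s.R B s.Vs s.Xs L).card ≤ κ * h := by
  have h1 := ev_sw ((L + 1) * (4 + (L + 1) * (2 * σ.K1 + 3))) ((L + 1) * (L + 2)) hκ
  have h2 : H652.Ev3 fun _ B _ => 1 ≤ B := H652.Ev3.of_B' fun _ => H652.ev_nat 1
  refine Suf.of_ev3 fun g _ => (h1.mono2 h2 fun m B h g1 hB => ?_).out
  intro s
  exact (sw_le s L hB).trans g1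

/-- the same with a further set of at most `c` levels -/
theorem sw_suf' (η : ℝ) (x : ℕ) (σ : Cst) (ε : ℝ) (ρ : Thr) {κ : ℝ} (hκ : 0 < κ) (L c : ℕ) : Suf σ ε fun g m B h =>
    1 ≤ B ∧ ∀ (s : St η x σ ε ρ g m B h) (T : Finset ℕ), T.card ≤ c →
      (m : ℝ) * (SwL s.R B s.Vs s.Xs L ∪ T).card ≤ κ * h := by
  have h1 := ev_sw ((L + 1) * (4 + (L + 1) * (2 * σ.K1 + 3))) ((L + 1) * (L + 2) + c) hκ
  have h2 : H652.Ev3 fun _ B _ => 1 ≤ B := H652.Ev3.of_B' fun _ => H652.ev_nat 1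
  refine Suf.of_ev3 fun g _ => (h1.mono2 h2 fun m B h g1 hB => ?_).out
  refine ⟨hB, fun s T hT => ?_⟩
  have l1 := sw_le s L hB
  have l2 : ((SwL s.R B s.Vs s.Xs L ∪ T).card : ℝ) ≤ (SwL s.R B s.Vs s.Xs L).card + c := by
    have := card_union_le (SwL s.R B s.Vs s.Xs L) T
    exact_mod_cast this.trans (by omega)
  have l3 := mul_le_mul_of_nonneg_left l2 (Nat.cast_nonneg m : (0 : ℝ) ≤ m)
  nlinarith [l1, l3, g1]

end Vale.Agent.P106.U.H336
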