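import Vale.Agent.P106.U.H833.PathX

/-!
# P106 / U / H336 : the exceptional levels of the light windows (helper336)

`R : S3.Run`, level of an index `i` : `aN R i = C.a i / m` (`= S3.lv R i`).  Data: young levels `Vs`, exceptional levels `Xs`
(`Rg`: outside `Xs` every index is in the kappa regime with room up to a later cap, or deep in the phi regime).

* `KR k` : kappa regime at the cap `b1` (`m b1 + rk k < rf k`), `kap z` : some index `k ≥ 1` of the level `z` is in this regime.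
* `kd z : Fin 4` : kind of the level `z` (`0` old kappa, `1` young kappa, `2` young deep phi, `3` old phi).
* `kd_eq` : for the indices of the levels outside `Xs` the kind says the regime.
* `Sw0`, `SwL L` : levels where something may happen at distance `≤ L` ahead.
* **`pure`** : in front of a window without levels of `SwL L` the kind is constant, up to `L` levels behind the window.
* **`steps`** : the indices of `L` levels in a row are at most `B`.
* **`card_SwL`** : `m #(SwL L) ≤ (L + 1) (m + m (2 #ends + 2 #Xs) + (L + 1) m (n + 1) / B)`.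
-/

set_option autoImplicit false

namespace Vale.Agent.P106.U.H336

open Finset
open Vale.Agent.P106.U.S3 (Run)
open Vale.Agent.P106.U.H833 (aN)

section

variable {Ω : Type} [Fintype Ω] {τ υ : Type} (R : Run Ω τ υ)

/-- kappa regime at the cap of the record -/
def KR (k : ℕ) : Prop := R.m * R.b1 + R.C.rk k < R.C.rf k

/-- the level `z` is in the kappa regime -/
def kap (z : ℕ) : Prop := ∃ k, 1 ≤ k ∧ k ≤ R.n ∧ aN R k = z ∧ KR R k

open Classical in
/-- kind of a level: `0` old kappa, `1` young kappa, `2` young deep phi, `3` old phi -/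
noncomputable def kd (Vs : Finset ℕ) (z : ℕ) : Fin 4 :=
  if z ∈ Vs then (if kap R z then 1 else 2) else (if kap R z then 0 else 3)

/-- **the regimes outside the exceptional levels** : `cS`, `cV` later caps, `rk0` precision of the young phi levels -/
structure Rg (B cS cV : ℕ) (rk0 : ℕ → ℕ) (Vs Xs : Finset ℕ) : Prop where
  B1 : 1 ≤ B
  l0 : ∀ i, rk0 i ≤ R.C.rk i
  S1 : R.m * R.b1 < cS
  V1 : R.m * R.b1 < cV
  old : ∀ k, 1 ≤ k → k ≤ R.n → aN R k ∉ Vs → aN R k ∉ Xs →
    cS + R.C.rk k ≤ R.C.rf k ∨ R.C.rf k + 2 * (R.m * B) ≤ R.m * R.b1 + R.C.rk k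
  yng : ∀ k, 1 ≤ k → k ≤ R.n → aN R k ∈ Vs → aN R k ∉ Xs →
    cV + R.C.rk k ≤ R.C.rf k ∨ R.C.rf k + 2 * (R.m * B) ≤ R.m * R.b1 + rk0 k

variable {R} {p : Run.Num} {B cS cV : ℕ} {rk0 : ℕ → ℕ} {Vs Xs : Finset ℕ}

namespace Rg

variable (H : Rg R B cS cV rk0 Vs Xs)

include H

/-- the two cases at an index, weak form -/
theorem cases {k : ℕ} (k1 : 1 ≤ k) (kn : k ≤ R.n) (hX : aN R k ∉ Xs) :
    (KR R k ∧ (aN R k ∉ Vs → cS + R.C.rk k ≤ R.C.rf k) ∧ (aN R k ∈ Vs → cV + R.C.rk k ≤ R.C.rf k)) ∨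
    (R.C.rf k + 2 * (R.m * B) ≤ R.m * R.b1 + R.C.rk k ∧ (aN R k ∈ Vs → R.C.rf k + 2 * (R.m * B) ≤ R.m * R.b1 + rk0 k)) := by
  have h0 := H.l0 k
  have hS := H.S1
  have hV := H.V1
  unfold KR
  by_cases hVs : aN R k ∈ Vs
  · rcases H.yng k k1 kn hVs hX with h | h
    · exact Or.inl ⟨by omega, fun h' => absurd hVs h', fun _ => h⟩
    · exact Or.inr ⟨by omega, fun _ => h⟩
  · rcases H.old k k1 kn hVs hX with h | h
    · exact Or.inl ⟨by omega, fun _ => h, fun h' => absurd h' hVs⟩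
    · exact Or.inr ⟨h, fun h' => absurd h' hVs⟩

/-- the two regimes are not neighbours -/
theorem step (hP : R.Path p) {k : ℕ} (k1 : 1 ≤ k) (kn : k + 1 ≤ R.n) (hX : aN R k ∉ Xs) (hX' : aN R (k + 1) ∉ Xs) :
    KR R k ↔ KR R (k + 1) := by
  have h1 := H.cases k1 (by omega) hX
  have h2 := H.cases (k := k + 1) (by omega) kn hX'
  have hS := H.S1
  have hV := H.V1
  have hm : 0 < R.m * B := Nat.mul_pos hP.m1 H.B1
  have hB : R.m ≤ R.m * B := Nat.le_mul_of_pos_right _ H.B1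
  have hs := hP.stp k (by omega)
  unfold KR at *
  rcases h1 with ⟨a1, a2, a3⟩ | ⟨a1, a2⟩ <;> rcases h2 with ⟨b1, b2, b3⟩ | ⟨b1, b2⟩
  · exact ⟨fun _ => b1, fun _ => a1⟩
  · exfalso
    rcases hs with ⟨_, e1, e2⟩ | ⟨_, e1, e2⟩ | ⟨_, e1, e2⟩ <;> omega
  · exfalso
    rcases hs with ⟨_, e1, e2⟩ | ⟨_, e1, e2⟩ | ⟨_, e1, e2⟩ <;> omega
  · exact ⟨fun h => by omega, fun h => by omega⟩

/-- one regime along indices whose levels are not exceptional -/
theorem along (hP : R.Path p) {i j : ℕ} (i1 : 1 ≤ i) (hij : i ≤ j) (jn : j ≤ R.n)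
    (hX : ∀ z, aN R i ≤ z → z ≤ aN R j → z ∉ Xs) : KR R i ↔ KR R j := by
  induction j, hij using Nat.le_induction with
  | base => exact Iff.rfl
  | succ j hij ih =>
    have hmj : aN R i ≤ aN R j := H833.aN_mono hP hij (by omega)
    have hmj' : aN R j ≤ aN R (j + 1) := H833.aN_mono hP (Nat.le_succ j) (by omega)
    rw [ih (by omega) fun z h1 h2 => hX z h1 (by omega)]
    exact H.step hP (by omega) jn (hX _ hmj hmj') (hX _ (by omega) le_rfl)

/-- the regime of the indices of a level -/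
theorem kap_iff (hP : R.Path p) {k : ℕ} (k1 : 1 ≤ k) (kn : k ≤ R.n) (hX : aN R k ∉ Xs) : kap R (aN R k) ↔ KR R k := by
  constructor
  · rintro ⟨j, j1, jn, e, hj⟩
    rcases le_total j k with h | h
    · refine (H.along hP j1 h kn fun z h1 h2 => ?_).1 hj
      have : z = aN R k := by omega
      rwa [this]
    · refine (H.along hP k1 h jn fun z h1 h2 => ?_).2 hj
      have : z = aN R k := by omega
      rwa [this]
  · exact fun h => ⟨k, k1, kn, rfl, h⟩

/-- **the kind says the regime**, at every index of the level -/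
theorem kd_eq (hP : R.Path p) {k : ℕ} (k1 : 1 ≤ k) (kn : k ≤ R.n) (hX : aN R k ∉ Xs) :
    (kd R Vs (aN R k) = 0 → aN R k ∉ Vs ∧ KR R k ∧ cS + R.C.rk k ≤ R.C.rf k) ∧
    (kd R Vs (aN R k) = 1 → aN R k ∈ Vs ∧ KR R k ∧ cV + R.C.rk k ≤ R.C.rf k) ∧
    (kd R Vs (aN R k) = 2 → aN R k ∈ Vs ∧ ¬ KR R k ∧ R.C.rf k + 2 * (R.m * B) ≤ R.m * R.b1 + rk0 k) ∧
    (kd R Vs (aN R k) = 3 → aN R k ∉ Vs ∧ ¬ KR R k ∧ R.C.rf k + 2 * (R.m * B) ≤ R.m * R.b1 + R.C.rk k) := by
  have h1 := H.cases k1 kn hX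
  have h2 := H.kap_iff hP k1 kn hX
  unfold kd
  by_cases hV : aN R k ∈ Vs <;> by_cases hk : kap R (aN R k)
  · rw [if_pos hV, if_pos hk]
    have h3 := h2.1 hk
    refine ⟨fun h => absurd h (by decide), fun _ => ⟨hV, h3, ?_⟩, fun h => absurd h (by decide),
      fun h => absurd h (by decide)⟩
    rcases h1 with h1 | h1
    · exact h1.2.2 hV
    · unfold KR at h3
      omega
  · rw [if_pos hV, if_neg hk]
    have h3 : ¬ KR R k := fun h => hk (h2.2 h)
    refine ⟨fun h => absurd h (by decide), fun h => absurd h (by decide), fun _ => ⟨hV, h3, ?_⟩,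
      fun h => absurd h (by decide)⟩
    rcases h1 with h1 | h1
    · exact absurd h1.1 h3
    · exact h1.2 hV
  · rw [if_neg hV, if_pos hk]
    have h3 := h2.1 hk
    refine ⟨fun _ => ⟨hV, h3, ?_⟩, fun h => absurd h (by decide), fun h => absurd h (by decide),
      fun h => absurd h (by decide)⟩
    rcases h1 with h1 | h1
    · exact h1.2.1 hV
    · unfold KR at h3
      omega
  · rw [if_neg hV, if_neg hk]
    have h3 : ¬ KR R k := fun h => hk (h2.2 h)
    refine ⟨fun h => absurd h (by decide), fun h => absurd h (by decide), fun h => absurd h (by decide),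
      fun _ => ⟨hV, h3, ?_⟩⟩
    rcases h1 with h1 | h1
    · exact absurd h1.1 h3
    · exact h1.1

end Rg

/-! ### levels are attained -/

/-- every level up to the last one has an index -/
theorem exists_lev (hP : R.Path p) {z : ℕ} (hz : z ≤ aN R R.n) : ∃ k ≤ R.n, aN R k = z := by
  have h0 : aN R 0 = 0 := by
    unfold aN
    rw [hP.a0, Nat.zero_div]
  have key : ∀ N ≤ R.n, z ≤ aN R N → ∃ k ≤ N, aN R k = z := by
    intro N
    induction N with
    | zero =>
      intro _ h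
      exact ⟨0, le_rfl, by omega⟩
    | succ N ih =>
      intro h1 h2
      rcases Nat.lt_or_ge (aN R N) z with h | h
      · have h3 := H833.aN_step hP (i := N) (by omega)
        exact ⟨N + 1, le_rfl, by omega⟩
      · obtain ⟨k, h4, h5⟩ := ih (by omega) h
        exact ⟨k, by omega, h5⟩
  exact key R.n le_rfl hz

theorem exists_lev1 (hP : R.Path p) {z : ℕ} (hz0 : z ≠ 0) (hz : z ≤ aN R R.n) : ∃ k, 1 ≤ k ∧ k ≤ R.n ∧ aN R k = z := by
  obtain ⟨k, h1, h2⟩ := exists_lev hP hz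
  refine ⟨k, ?_, h1, h2⟩
  rcases Nat.eq_zero_or_pos k with h | h
  · exfalso
    subst h
    have h0 : aN R 0 = 0 := by
      unfold aN
      rw [hP.a0, Nat.zero_div]
    omega
  · exact h

/-- neighbouring levels of one kind -/
theorem Rg.kd_succ (H : Rg R B cS cV rk0 Vs Xs) (hP : R.Path p) {z : ℕ} (hz0 : z ≠ 0) (hz : z + 1 ≤ aN R R.n)
    (hX : z ∉ Xs) (hX' : z + 1 ∉ Xs) (hV : z ∈ Vs ↔ z + 1 ∈ Vs) : kd R Vs z = kd R Vs (z + 1) := by
  obtain ⟨k, k1, k2, k3⟩ := exists_lev1 hP hz0 (show z ≤ aN R R.n by omega)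
  obtain ⟨j, j1, j2, j3⟩ := exists_lev1 hP (Nat.succ_ne_zero z) hz
  have hkj : k ≤ j := by
    by_contra hcon
    have := H833.aN_mono hP (i := j) (j := k) (by omega) (by omega)
    omega
  have h1 : KR R k ↔ KR R j := H.along hP k1 hkj j2 fun y h1 h2 => by
    have h3 : y = z ∨ y = z + 1 := by omega
    rcases h3 with h3 | h3 <;> rw [h3] <;> assumption
  have h2 := H.kap_iff hP k1 k2 (by rw [k3]; exact hX)
  have h3 := H.kap_iff hP j1 j2 (by rw [j3]; exact hX')
  rw [k3] at h2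
  rw [j3] at h3
  have h4 : kap R z ↔ kap R (z + 1) := by rw [h2, h3, h1]
  unfold kd
  by_cases a1 : z ∈ Vs <;> by_cases a2 : kap R z
  · rw [if_pos a1, if_pos a2, if_pos (hV.1 a1), if_pos (h4.1 a2)]
  · rw [if_pos a1, if_neg a2, if_pos (hV.1 a1), if_neg fun g => a2 (h4.2 g)]
  · rw [if_neg a1, if_pos a2, if_neg fun g => a1 (hV.2 g), if_pos (h4.1 a2)]
  · rw [if_neg a1, if_neg a2, if_neg fun g => a1 (hV.2 g), if_neg fun g => a2 (h4.2 g)]

/-! ### the exceptional levels -/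

open Classical in
/-- indices of the levels `y, .., y + L` -/
noncomputable def ind (R : Run Ω τ υ) (L y : ℕ) : Finset ℕ :=
  (range (R.n + 1)).filter fun i => y ≤ aN R i ∧ aN R i ≤ y + L

/-- something may happen at the level `y` -/
def Evt (R : Run Ω τ υ) (B : ℕ) (Vs Xs : Finset ℕ) (L y : ℕ) : Prop :=
  y = 0 ∨ y ∈ Xs ∨ y + 1 ∈ Xs ∨ (y ∈ Vs ∧ y + 1 ∉ Vs) ∨ (y ∉ Vs ∧ y + 1 ∈ Vs) ∨ B < (ind R L y).card

open Classical in
/-- **the exceptional levels**, reach `L` -/
noncomputable def SwL (R : Run Ω τ υ) (B : ℕ) (Vs Xs : Finset ℕ) (L : ℕ) : Finset ℕ :=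
  (range (aN R R.n + 1)).filter fun z => ∃ y, z ≤ y ∧ y ≤ z + L ∧ Evt R B Vs Xs L y

theorem no_evt {L z0 z1 y : ℕ} (h01 : z0 ≤ z1) (h1n : z1 ≤ aN R R.n)
    (h : ∀ z, z0 ≤ z → z ≤ z1 → z ∉ SwL R B Vs Xs L) (hy0 : z0 ≤ y) (hy1 : y ≤ z1 + L) : ¬ Evt R B Vs Xs L y := by
  classical
  intro he
  have key : ∀ z, z0 ≤ z → z ≤ z1 → z ≤ y → y ≤ z + L → False := by
    intro z h1 h2 h3 h4
    refine h z h1 h2 ?_
    unfold SwL
    rw [mem_filter, mem_range]
    exact ⟨by omega, y, h3, h4, he⟩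
  rcases le_total y z1 with h2 | h2
  · exact key y hy0 h2 le_rfl (Nat.le_add_right _ _)
  · exact key z1 h01 le_rfl h2 hy1

/-- **one kind** in a window without exceptional levels, and `L` levels more -/
theorem Rg.pure (H : Rg R B cS cV rk0 Vs Xs) (hP : R.Path p) {L z0 z1 : ℕ} (h01 : z0 ≤ z1) (h1n : z1 ≤ aN R R.n)
    (h : ∀ z, z0 ≤ z → z ≤ z1 → z ∉ SwL R B Vs Xs L) :
    ∀ y, z0 ≤ y → y ≤ z1 + L → y ≤ aN R R.n → y ≠ 0 ∧ y ∉ Xs ∧ kd R Vs y = kd R Vs z0 := by
  intro y hy0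
  have hE : ∀ y, z0 ≤ y → y ≤ z1 + L → ¬ Evt R B Vs Xs L y := fun y h1 h2 => no_evt h01 h1n h h1 h2
  induction y, hy0 using Nat.le_induction with
  | base =>
    intro h1 h2
    have h3 := hE z0 le_rfl h1
    unfold Evt at h3
    push Not at h3
    exact ⟨h3.1, h3.2.1, rfl⟩
  | succ y hy ih =>
    intro h1 h2
    obtain ⟨h3, h4, h5⟩ := ih (by omega) (by omega)
    have h6 := hE y hy (by omega)
    unfold Evt at h6
    push Not at h6
    obtain ⟨_, _, g1, g2, g3, _⟩ := h6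
    refine ⟨Nat.succ_ne_zero y, g1, ?_⟩
    rw [← h5]
    refine (H.kd_succ hP h3 h2 h4 g1 ⟨g2, fun g => ?_⟩).symm
    by_contra hcon
    exact g3 hcon g

/-- **the regime at the indices** of such a window -/
theorem Rg.pure_idx (H : Rg R B cS cV rk0 Vs Xs) (hP : R.Path p) {L z0 z1 : ℕ} (h01 : z0 ≤ z1) (h1n : z1 ≤ aN R R.n)
    (h : ∀ z, z0 ≤ z → z ≤ z1 → z ∉ SwL R B Vs Xs L) {k : ℕ} (k0 : z0 ≤ aN R k) (k1 : aN R k ≤ z1 + L) (kn : k ≤ R.n) :
    1 ≤ k ∧ aN R k ∉ Xs ∧ kd R Vs (aN R k) = kd R Vs z0 ∧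
    (kd R Vs z0 = 0 → aN R k ∉ Vs ∧ KR R k ∧ cS + R.C.rk k ≤ R.C.rf k) ∧
    (kd R Vs z0 = 1 → aN R k ∈ Vs ∧ KR R k ∧ cV + R.C.rk k ≤ R.C.rf k) ∧
    (kd R Vs z0 = 2 → aN R k ∈ Vs ∧ ¬ KR R k ∧ R.C.rf k + 2 * (R.m * B) ≤ R.m * R.b1 + rk0 k) ∧
    (kd R Vs z0 = 3 → aN R k ∉ Vs ∧ ¬ KR R k ∧ R.C.rf k + 2 * (R.m * B) ≤ R.m * R.b1 + R.C.rk k) := by
  have hkn : aN R k ≤ aN R R.n := H833.aN_mono hP kn (by omega)
  obtain ⟨h2, h3, h4⟩ := H.pure hP h01 h1n h (aN R k) k0 k1 hkn
  have hk1 : 1 ≤ k := by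
    rcases Nat.eq_zero_or_pos k with h5 | h5
    · exfalso
      apply h2
      rw [h5]
      unfold aN
      rw [hP.a0, Nat.zero_div]
    · exact h5
  have h5 := H.kd_eq hP hk1 kn h3
  rw [h4] at h5
  exact ⟨hk1, h3, h4, h5⟩

/-- **few unit steps** in front of a level of the window -/
theorem steps {L z0 z1 : ℕ} (h01 : z0 ≤ z1) (h1n : z1 ≤ aN R R.n) (hP : R.Path p)
    (h : ∀ z, z0 ≤ z → z ≤ z1 → z ∉ SwL R B Vs Xs L) {k i : ℕ} (k0 : z0 ≤ aN R k) (k1 : aN R k ≤ z1) (hki : k ≤ i)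
    (hi : i ≤ R.n) (ha : aN R i ≤ aN R k + L) : i ≤ k + B := by
  classical
  have h1 := no_evt h01 h1n h k0 (show aN R k ≤ z1 + L by omega)
  unfold Evt at h1
  push Not at h1
  have h2 := h1.2.2.2.2.2
  have h3 : Icc k i ⊆ ind R L (aN R k) := by
    intro j hj
    rw [mem_Icc] at hj
    unfold ind
    rw [mem_filter, mem_range]
    have g1 := H833.aN_mono hP hj.1 (by omega)
    have g2 := H833.aN_mono hP hj.2 (by omega)
    exact ⟨by omega, g1, by omega⟩
  have h4 := card_le_card h3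
  rw [Nat.card_Icc] at h4
  omega

/-! ### the number of the exceptional levels -/

/-- the entrances of a finite set are at most its ends -/
theorem card_entr (S : Finset ℕ) (N : ℕ) :
    ((range N).filter fun y => y ∉ S ∧ y + 1 ∈ S).card ≤ (S.filter fun y => y + 1 ∉ S).card := by
  classical
  -- the end of the run which starts at `y + 1`
  have ex : ∀ y ∈ S, ∃ e, y ≤ e ∧ e ∈ S ∧ e + 1 ∉ S ∧ ∀ x, y ≤ x → x ≤ e → x ∈ S := by
    intro y hy
    have hne : ∃ e, y ≤ e ∧ e + 1 ∉ S := by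
      refine ⟨max y (S.sup id), le_max_left _ _, fun h => ?_⟩
      have h1 : max y (S.sup id) + 1 ≤ S.sup id := Finset.le_sup (f := id) h
      have h2 := le_max_right y (S.sup id)
      omega
    refine ⟨Nat.find hne, (Nat.find_spec hne).1, ?_, (Nat.find_spec hne).2, ?_⟩
    · rcases Nat.eq_or_lt_of_le (Nat.find_spec hne).1 with h | h
      · rw [← h]; exact hy
      · have h1 := Nat.find_min hne (m := Nat.find hne - 1) (by omega)
        push Not at h1
        have h2 := h1 (by omega)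
        rwa [show Nat.find hne - 1 + 1 = Nat.find hne by omega] at h2
    · intro x h1 h2
      rcases Nat.eq_or_lt_of_le h1 with h | h
      · rw [← h]; exact hy
      · have h3 := Nat.find_min hne (m := x - 1) (by omega)
        push Not at h3
        have h4 := h3 (by omega)
        rwa [show x - 1 + 1 = x by omega] at h4
  choose! e e1 e2 e3 e4 using ex
  refine card_le_card_of_injOn (fun y => e (y + 1)) (fun y hy => ?_) fun x hx y hy hxy => ?_
  · have hy' : y ∈ (range N).filter fun y => y ∉ S ∧ y + 1 ∈ S := hy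
    rw [mem_filter] at hy'
    have h1 := hy'.2.2
    show e (y + 1) ∈ S.filter fun y => y + 1 ∉ S
    rw [mem_filter]
    exact ⟨e2 _ h1, e3 _ h1⟩
  · have hx' : x ∈ (range N).filter fun y => y ∉ S ∧ y + 1 ∈ S := hx
    have hy' : y ∈ (range N).filter fun y => y ∉ S ∧ y + 1 ∈ S := hy
    rw [mem_filter] at hx' hy'
    have hxy' : e (x + 1) = e (y + 1) := hxy
    rcases lt_trichotomy x y with h | h | h
    · exact absurd (e4 _ hx'.2.2 y (by omega) (by rw [hxy']; have := e1 _ hy'.2.2; omega)) hy'.2.1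
    · exact h
    · exact absurd (e4 _ hy'.2.2 x (by omega) (by rw [← hxy']; have := e1 _ hx'.2.2; omega)) hx'.2.1

/-- levels with many unit steps -/
theorem card_big (L N : ℕ) : B * ((range N).filter fun y => B < (ind R L y).card).card ≤ (L + 1) * (R.n + 1) := by
  classical
  have h1 : B * ((range N).filter fun y => B < (ind R L y).card).card ≤ ∑ y ∈ range N, (ind R L y).card := by
    have g1 : ∑ y ∈ (range N).filter (fun y => B < (ind R L y).card), (ind R L y).card ≤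
        ∑ y ∈ range N, (ind R L y).card := sum_le_sum_of_subset (filter_subset _ _)
    refine le_trans ?_ g1
    rw [Nat.mul_comm, ← smul_eq_mul]
    refine card_nsmul_le_sum _ _ _ fun y hy => ?_
    rw [mem_filter] at hy
    exact hy.2.le
  have h2 : ∑ y ∈ range N, (ind R L y).card = ∑ i ∈ range (R.n + 1), ((range N).filter fun y =>
      y ≤ aN R i ∧ aN R i ≤ y + L).card := by
    unfold ind
    simp only [card_filter]
    exact sum_comm
  have h3 : ∀ i ∈ range (R.n + 1), ((range N).filter fun y => y ≤ aN R i ∧ aN R i ≤ y + L).card ≤ L + 1 := by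
    intro i _
    refine (card_le_card (t := Icc (aN R i - L) (aN R i)) fun y hy => ?_).trans ?_
    · rw [mem_filter] at hy
      rw [mem_Icc]
      omega
    · rw [Nat.card_Icc]
      omega
  have h4 := sum_le_card_nsmul _ _ _ h3
  rw [card_range, smul_eq_mul, Nat.mul_comm] at h4
  omega

theorem card_evt (L N : ℕ) (hB : 1 ≤ B) [DecidablePred (Evt R B Vs Xs L)] :
    (((range N).filter fun y => Evt R B Vs Xs L y).card : ℝ) ≤
      1 + 2 * Xs.card + 2 * (Vs.filter fun v => v + 1 ∉ Vs).card + (L + 1) * (R.n + 1) / B := by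
  classical
  have hsub : ((range N).filter fun y => Evt R B Vs Xs L y) ⊆
      ((({0} ∪ Xs) ∪ Xs.image (fun x => x - 1)) ∪ (Vs.filter fun v => v + 1 ∉ Vs)) ∪
        (((range N).filter fun y => y ∉ Vs ∧ y + 1 ∈ Vs) ∪ ((range N).filter fun y => B < (ind R L y).card)) := by
    intro y hy
    rw [mem_filter] at hy
    obtain ⟨h0, h1⟩ := hy
    simp only [mem_union, mem_filter, mem_singleton, mem_image]
    rcases h1 with h1 | h1 | h1 | h1 | h1 | h1
    · exact Or.inl (Or.inl (Or.inl (Or.inl h1)))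
    · exact Or.inl (Or.inl (Or.inl (Or.inr h1)))
    · exact Or.inl (Or.inl (Or.inr ⟨y + 1, h1, by omega⟩))
    · exact Or.inl (Or.inr h1)
    · exact Or.inr (Or.inl ⟨h0, h1⟩)
    · exact Or.inr (Or.inr ⟨h0, h1⟩)
  have h1 := card_le_card hsub
  have h2 : (((({0} ∪ Xs) ∪ Xs.image (fun x => x - 1)) ∪ (Vs.filter fun v => v + 1 ∉ Vs)) ∪
        (((range N).filter fun y => y ∉ Vs ∧ y + 1 ∈ Vs) ∪ ((range N).filter fun y => B < (ind R L y).card))).card ≤
      1 + Xs.card + Xs.card + (Vs.filter fun v => v + 1 ∉ Vs).card + ((Vs.filter fun v => v + 1 ∉ Vs).card +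
        ((range N).filter fun y => B < (ind R L y).card).card) := by
    refine (card_union_le _ _).trans (Nat.add_le_add ?_ ?_)
    · refine (card_union_le _ _).trans (Nat.add_le_add ?_ le_rfl)
      refine (card_union_le _ _).trans (Nat.add_le_add ?_ card_image_le)
      refine (card_union_le _ _).trans (Nat.add_le_add ?_ le_rfl)
      rw [card_singleton]
    · exact (card_union_le _ _).trans (Nat.add_le_add (card_entr Vs N) le_rfl)
  have h3 := card_big (R := R) (B := B) L N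
  have hB0 : (0 : ℝ) < B := by exact_mod_cast hB
  have h4 : (((range N).filter fun y => B < (ind R L y).card).card : ℝ) ≤ (L + 1) * (R.n + 1) / B := by
    rw [le_div_iff₀ hB0]
    have : ((B * ((range N).filter fun y => B < (ind R L y).card).card : ℕ) : ℝ) ≤ (((L + 1) * (R.n + 1) : ℕ) : ℝ) := by
      exact_mod_cast h3
    push_cast at this
    linarith
  have h5 : (((range N).filter fun y => Evt R B Vs Xs L y).card : ℝ) ≤
      1 + Xs.card + Xs.card + (Vs.filter fun v => v + 1 ∉ Vs).card + ((Vs.filter fun v => v + 1 ∉ Vs).card +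
        ((range N).filter fun y => B < (ind R L y).card).card) := by
    exact_mod_cast h1.trans h2
  linarith

/-- **the number of the exceptional levels** -/
theorem card_SwL (L : ℕ) (hB : 1 ≤ B) : ((SwL R B Vs Xs L).card : ℝ) ≤
    (L + 1) * (1 + 2 * Xs.card + 2 * (Vs.filter fun v => v + 1 ∉ Vs).card + (L + 1) * (R.n + 1) / B) := by
  classical
  set N := aN R R.n + L + 1 with hN
  have hsub : SwL R B Vs Xs L ⊆ ((range N).filter fun y => Evt R B Vs Xs L y).biUnion fun y => Icc (y - L) y := by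
    intro z hz
    unfold SwL at hz
    rw [mem_filter, mem_range] at hz
    obtain ⟨h0, y, h1, h2, h3⟩ := hz
    rw [mem_biUnion]
    exact ⟨y, by rw [mem_filter, mem_range]; exact ⟨by omega, h3⟩, by rw [mem_Icc]; omega⟩
  have h1 := card_le_card hsub
  have h2 : (((range N).filter fun y => Evt R B Vs Xs L y).biUnion fun y => Icc (y - L) y).card ≤
      ((range N).filter fun y => Evt R B Vs Xs L y).card * (L + 1) :=
    card_biUnion_le_card_mul _ _ _ fun y _ => by
      rw [Nat.card_Icc]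
      omega
  have h3 := card_evt (R := R) (B := B) (Vs := Vs) (Xs := Xs) L N hB
  have h4 : ((SwL R B Vs Xs L).card : ℝ) ≤ ((range N).filter fun y => Evt R B Vs Xs L y).card * (L + 1) := by
    exact_mod_cast h1.trans h2
  have h5 := mul_le_mul_of_nonneg_right h3 (show (0 : ℝ) ≤ L + 1 by positivity)
  linarith

/-- the number of the unit steps -/
theorem mn_le (hP : R.Path p) {K1 : ℝ} (hq : (R.q : ℝ) ≤ R.r0 + (K1 + 1) * R.h) :
    (R.m : ℝ) * R.n ≤ (2 * K1 + 3) * R.h := by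
  have key : ∀ i ≤ R.n, R.C.a i + R.C.rf i + R.C.rk i = 2 * R.r0 + R.m * i := by
    intro i
    induction i with
    | zero =>
      intro _
      rw [hP.a0, hP.f0, hP.k0]
      ring
    | succ i ih =>
      intro h
      have h1 := ih (by omega)
      have e : R.m * (i + 1) = R.m * i + R.m := by ring
      rw [e]
      rcases hP.stp i (by omega) with ⟨a1, a2, a3⟩ | ⟨a1, a2, a3⟩ | ⟨a1, a2, a3⟩ <;> omega
  have h1 := key R.n le_rfl
  have h2 : R.C.a R.n ≤ R.h := (R.C.ha (Nat.le_add_right _ _)).trans hP.rA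
  have h3 : R.C.rf R.n ≤ R.q := (hP.leF R.n (Nat.le_add_right _ _)).trans hP.rF
  have h4 := R.C.hkf R.n
  have h5 : R.m * R.n + 2 * R.r0 ≤ R.h + 2 * R.q := by omega
  have h6 : (R.m : ℝ) * R.n + 2 * R.r0 ≤ R.h + 2 * R.q := by exact_mod_cast h5
  linarith

/-- **relative form** : `B` after `L`, then `h` -/
theorem SwL_le (hP : R.Path p) {K1 : ℝ} (hq : (R.q : ℝ) ≤ R.r0 + (K1 + 1) * R.h) (L : ℕ) (hB : 1 ≤ B)
    (runs : (R.m : ℝ) * (Vs.filter fun v => v + 1 ∉ Vs).card ≤ R.h / B) (xs : (R.m : ℝ) * Xs.card ≤ R.h / B) :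
    (R.m : ℝ) * (SwL R B Vs Xs L).card ≤
      (L + 1) * (4 + (L + 1) * (2 * K1 + 3)) * (R.h / B) + (L + 1) * (L + 2) * R.m := by
  have h1 := card_SwL (R := R) (Vs := Vs) (Xs := Xs) L hB
  have h2 := mn_le hP hq
  have hm : (0 : ℝ) ≤ R.m := Nat.cast_nonneg _
  have hB1 : (1 : ℝ) ≤ B := by exact_mod_cast hB
  have hB0 : (0 : ℝ) < B := by linarith
  have hL : (0 : ℝ) ≤ (L : ℝ) + 1 := by positivity
  have h3 := mul_le_mul_of_nonneg_left h1 hm
  have h4 : (R.m : ℝ) * ((L + 1) * (R.n + 1) / B) ≤ (L + 1) * (2 * K1 + 3) * (R.h / B) + (L + 1) * R.m := by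
    have e : (R.m : ℝ) * ((L + 1) * (R.n + 1) / B) = (L + 1) * ((R.m * R.n) / B) + (L + 1) * (R.m / B) := by
      field_simp
    rw [e]
    have g1 : (R.m : ℝ) * R.n / B ≤ (2 * K1 + 3) * R.h / B := div_le_div_of_nonneg_right h2 hB0.le
    have g2 : (R.m : ℝ) / B ≤ R.m := div_le_self hm hB1
    have g3 := mul_le_mul_of_nonneg_left g1 hL
    have g4 := mul_le_mul_of_nonneg_left g2 hL
    have e2 : ((L : ℝ) + 1) * ((2 * K1 + 3) * R.h / B) = (L + 1) * (2 * K1 + 3) * (R.h / B) := by ring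
    linarith
  have h5 : (R.m : ℝ) * ((L + 1) * (1 + 2 * Xs.card + 2 * (Vs.filter fun v => v + 1 ∉ Vs).card + (L + 1) * (R.n + 1) / B)) =
      (L + 1) * (R.m + 2 * (R.m * Xs.card) + 2 * (R.m * (Vs.filter fun v => v + 1 ∉ Vs).card) +
        R.m * ((L + 1) * (R.n + 1) / B)) := by ring
  rw [h5] at h3
  have h6 : (R.m : ℝ) + 2 * (R.m * Xs.card) + 2 * (R.m * (Vs.filter fun v => v + 1 ∉ Vs).card) +
        R.m * ((L + 1) * (R.n + 1) / B) ≤ 4 * (R.h / B) + (L + 1) * (2 * K1 + 3) * (R.h / B) + (L + 2) * R.m := by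
    linarith
  have h7 := mul_le_mul_of_nonneg_left h6 hL
  have e3 : ((L : ℝ) + 1) * (4 * (R.h / B) + (L + 1) * (2 * K1 + 3) * (R.h / B) + (L + 2) * R.m) =
      (L + 1) * (4 + (L + 1) * (2 * K1 + 3)) * (R.h / B) + (L + 1) * (L + 2) * R.m := by ring
  linarith

end

end Vale.Agent.P106.U.H336
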