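import Vale.Agent.P106.U.MIC.Stage
import Vale.Agent.P106.U.H336.SwF
import Vale.Agent.P106.U.H404.RowKd
import Vale.Agent.P106.U.H495.RowV

/-!
# P106 / U / H336 : the windows of one kind over the situation of `MIC/Stage.lean` (helper336)

`hW` : all levels of `[s.a i, s.a k + Lk]` are outside `Sw ⊇ SwL .. L` and of kind `c`.

* `IdxOk` : what is known at one index of the record, **`win_idx`** : at all indices of the levels `[s.a i, s.a k + Lk + L]`.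
* **`win_at`** : the pairs `(u, y)` are pairs of the field `f2`.
* **`win_y`**, **`win_y'`** : the pairs `(f j + 1, y)`, `(f j, y)` with the late index `y` of the window.
-/

set_option autoImplicit false

namespace Vale.Agent.P106.U.H336

open Finset Vale.Agent.P127 Vale.Agent.P127.Stk Vale.Agent.P127.U Vale.Agent.P106.W Vale.Agent.P106.K
open Vale.Agent.P106.U.S3 Vale.Agent.P106.U.S5 Vale.Agent.P106.U.MIC Vale.Agent.P106.U.H823
open Vale.Agent.P106.U.H833 (aN RN lx lx_spec)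
open Vale.Agent.P106.U.H495 (WAt)

variable {η : ℝ} {x : ℕ} {σ : Cst} {ε : ℝ} {ρ : Thr} {g : Gv} {m B h : ℕ}

/-- **what is known at an index** of a level of kind `c` -/
structure IdxOk (s : St η x σ ε ρ g m B h) (c : Fin 3) (q : ℕ) : Prop where
  one : 1 ≤ q
  n : q ≤ s.R.n
  X : aN s.R q ∉ s.Xs
  kd : s.kd (aN s.R q) = c
  k0 : c = 0 → aN s.R q ∉ s.Vs ∧ q ∈ IdO s.R s.Vs s.Xs ∧
    (s.bS + s.R.C.rk q ≤ s.R.C.rf q ∨ s.R.C.rf q + 2 * (s.R.m * B) ≤ s.R.m * s.R.b1 + s.R.C.rk q)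
  k1 : c = 1 → aN s.R q ∈ s.Vs ∧ q ∈ IdK s.R s.Vs s.Xs ∧ KR s.R q ∧ s.bV + s.R.C.rk q ≤ s.R.C.rf q
  k2 : c = 2 → aN s.R q ∈ s.Vs ∧ q ∈ IdP s.R s.F B s.Vs s.Xs ∧ ¬ KR s.R q ∧
    s.R.C.rf q + 2 * (s.R.m * B) ≤ s.R.m * s.R.b1 + s.F.rk0 q

/-- **all indices of a window** and of `L` levels more -/
theorem win_idx (s : St η x σ ε ρ g m B h) (hB : 1 ≤ B) {L z0 z1 : ℕ} {c : Fin 3} (h01 : z0 ≤ z1)
    (hW : ∀ z, z0 ≤ z → z ≤ z1 → z ∉ SwL s.R B s.Vs s.Xs L ∧ s.kd z = c) {q : ℕ} (q0 : z0 ≤ aN s.R q)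
    (q1 : aN s.R q ≤ z1 + L) (qn : q ≤ s.R.n) : IdxOk s c q := by
  classical
  have hP := s.run.ok.pth
  have hR := rg_of s.f2 hP.m1 hB
  have hqn : aN s.R q ≤ aN s.R s.R.n := H833.aN_mono hP qn (by omega)
  have hW' : ∀ z, z0 ≤ z → z ≤ min z1 (aN s.R s.R.n) → z ∉ SwL s.R B s.Vs s.Xs L := fun z h1 h2 =>
    (hW z h1 (h2.trans (min_le_left _ _))).1
  obtain ⟨g1, g2, g3, g4, g5, g6, g7⟩ := hR.pure_idx hP (z0 := z0) (z1 := min z1 (aN s.R s.R.n)) (by omega)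
    (min_le_right _ _) hW' q0 (by omega) qn
  have e0 : s.kd z0 = c := (hW z0 le_rfl h01).2
  have e1 : s.kd (aN s.R q) = s.kd z0 := H404.kd_congr s g3
  obtain ⟨c1, c2, c3⟩ := H404.kd_cases s z0
  refine ⟨g1, qn, g2, e1.trans e0, ?_, ?_, ?_⟩
  · intro hc
    have g8 := c3.1 (e0.trans hc)
    have g9 : aN s.R q ∉ s.Vs := by
      rcases g8 with g8 | g8
      · exact (g4 g8).1
      · exact (g7 g8).1
    refine ⟨g9, ?_, s.f2.regS q g1 qn g9 g2⟩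
    unfold IdO
    rw [mem_filter, mem_Icc]
    exact ⟨⟨g1, qn⟩, g9, g2⟩
  · intro hc
    obtain ⟨g8, g9, g10⟩ := g5 (c1.1 (e0.trans hc))
    refine ⟨g8, ?_, g9, g10⟩
    unfold IdK
    rw [mem_filter, mem_Icc]
    exact ⟨⟨g1, qn⟩, g8, g2, g9⟩
  · intro hc
    obtain ⟨g8, g9, g10⟩ := g6 (c2.1 (e0.trans hc))
    refine ⟨g8, ?_, g9, g10⟩
    unfold IdP
    rw [mem_filter, mem_Icc]
    exact ⟨⟨g1, qn⟩, g8, g2, g10⟩

/-- **the pairs of a window are pairs of the field** -/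
theorem win_at (s : St η x σ ε ρ g m B h) {L z0 z1 : ℕ} (h01 : z0 ≤ z1)
    (hW : ∀ z, z0 ≤ z → z ≤ z1 → z ∉ SwL s.R B s.Vs s.Xs L) {u y : ℕ} (u0 : z0 ≤ aN s.R u) (u1 : aN s.R u ≤ z1)
    (uy : u < y) (yn : y ≤ s.R.n) (hA : s.R.IsA y) (hL : aN s.R y ≤ aN s.R u + L) :
    At s.R s.pn B (aN s.R y - aN s.R u) u y ∧ y ∈ At' s.R s.pn B (aN s.R y - aN s.R u) u := by
  classical
  have hP := s.run.ok.pth
  have h1 : aN s.R u ≤ aN s.R y := H833.aN_mono hP uy.le (by omega)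
  have h2 : aN s.R y ≤ aN s.R s.R.n := H833.aN_mono hP yn (by omega)
  have h3 : y ≤ u + B := by
    refine steps (z0 := z0) (z1 := min z1 (aN s.R s.R.n)) (by omega) (min_le_right _ _) hP
      (fun z g1 g2 => hW z g1 (g2.trans (min_le_left _ _))) u0 (by omega) uy.le yn hL
  have h4 : At s.R s.pn B (aN s.R y - aN s.R u) u y := by
    refine ⟨uy, h3, by omega, ?_, hA⟩
    have e1 := H833.lev_a hP (i := y) (by omega)
    have e2 := H833.lev_a hP (i := u) (by omega)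
    rw [e1, e2]
    have e3 : aN s.R y = aN s.R u + (aN s.R y - aN s.R u) := by omega
    conv_lhs => rw [e3]
    ring
  refine ⟨h4, ?_⟩
  unfold At'
  rw [mem_filter, mem_range]
  exact ⟨by omega, h4⟩

/-! ### the windows of the rows -/

section win

variable (s : St η x σ ε ρ g m B h)

theorem f_le (j : ℕ) : s.f j ≤ s.R.n := H812.ix_le_n _ _ _

theorem f_lt {i k : ℕ} (hik : i < k) (hk : k ≤ s.N) : s.f i < s.f k := H812.ix_strict s.run.ok.pth i k hik hk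

/-- the levels of the index `f j + 1` -/
theorem aN_f1 {j : ℕ} (hj : j < s.N) : aN s.R (s.f j + 1) = s.a (j + 1) :=
  (Cmp.same s.run.ok.pth (x := s.R.b1) (j := s.i0 + j) (by
    have h1 : j < Cmp.Nc s.R s.R.b1 - s.i0 := hj
    omega)).1.symm

theorem isA_f {j : ℕ} (hj : j < s.N) (h1 : s.a (j + 1) = s.a j + 1) : s.R.IsA (s.f j) :=
  H812.ix_isA s.run.ok.pth hj h1

/-- few levels in a window -/
theorem a_le_add {i : ℕ} : ∀ {k : ℕ}, i ≤ k → k ≤ s.N → s.a k ≤ s.a i + (k - i) := by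
  intro k hik
  induction k, hik using Nat.le_induction with
  | base => intro _; omega
  | succ k hk ih =>
    intro h1
    have h2 := ih (by omega)
    rcases s.word.sd.ha k (by exact h1) with h3 | ⟨h3, _⟩
    · have h3' : s.a (k + 1) = s.a k := h3
      omega
    · have h3' : s.a (k + 1) = s.a k + 1 := h3
      omega

variable {s} {Sw : Finset ℕ} {L L1 L2 Lk Kr i k : ℕ} {c : Fin 3}

/-- facts of the late index -/
theorem win_late (hK : 0 < Kr) (hA : WAt s.N s.a (fun z => z ∉ Sw ∧ s.kd z = c) L1 L2 Lk Kr i k) :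
    k < lx s.N s.a Kr k ∧ lx s.N s.a Kr k < s.N ∧ lx s.N s.a Kr k < i + L2 ∧ s.f k < s.f (lx s.N s.a Kr k) ∧
      s.f (lx s.N s.a Kr k) < s.R.n ∧ s.R.IsA (s.f (lx s.N s.a Kr k)) ∧ aN s.R (s.f (lx s.N s.a Kr k)) = s.a k + Kr ∧
      s.a (lx s.N s.a Kr k) = s.a k + Kr := by
  obtain ⟨h1, h2, ⟨i1, h3, h4, h5, h6⟩, h7⟩ := hA
  have D := s.word.sd
  obtain ⟨g1, g2, g3, g4⟩ := lx_spec (N := s.N) (a := s.a) D h4 h3 hK h6
  refine ⟨g1, by omega, by omega, f_lt s g1 (by omega), ?_, isA_f s (by omega) (g4.trans (by rw [g3])), g3, g3⟩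
  have := f_lt s (show lx s.N s.a Kr k < s.N by omega) le_rfl
  have h9 := f_le s s.N
  omega

/-- **the indices of a window of a row** -/
theorem win_ix (hB : 1 ≤ B) (hS : SwL s.R B s.Vs s.Xs L ⊆ Sw)
    (hA : WAt s.N s.a (fun z => z ∉ Sw ∧ s.kd z = c) L1 L2 Lk Kr i k) {q : ℕ} (q0 : s.f i ≤ q)
    (q1 : aN s.R q ≤ s.a k + Lk + L) (qn : q ≤ s.R.n) : IdxOk s c q := by
  obtain ⟨h1, h2, ⟨i1, h3, h4, h5, h6⟩, h7⟩ := hA
  have hm : s.a i ≤ s.a k := H812.az_mono s.run.ok.pth i k h1.le (by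
    have : k ≤ s.N := by omega
    exact this)
  exact win_idx s hB (z0 := s.a i) (z1 := s.a k + Lk) (by omega)
    (fun z g1 g2 => ⟨fun g3 => (h7 z g1 g2).1 (hS g3), (h7 z g1 g2).2⟩) (H833.aN_mono s.run.ok.pth q0 (by omega)) q1 qn

/-- **the pairs `(u, y)`** with the late index `y` of the window, `f i ≤ u ≤ f k` -/
theorem win_u (hB : 1 ≤ B) (hK : 0 < Kr) (hKL : Kr ≤ Lk) (hL : L1 + Kr ≤ L) (hS : SwL s.R B s.Vs s.Xs L ⊆ Sw)
    (hA : WAt s.N s.a (fun z => z ∉ Sw ∧ s.kd z = c) L1 L2 Lk Kr i k) {u : ℕ} (u0 : s.f i ≤ u) (u1 : u ≤ s.f k) :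
    IdxOk s c u ∧ IdxOk s c (s.f (lx s.N s.a Kr k)) ∧ u < s.f (lx s.N s.a Kr k) ∧
      aN s.R (s.f (lx s.N s.a Kr k)) - aN s.R u ≤ L1 + Kr ∧
      At s.R s.pn B (aN s.R (s.f (lx s.N s.a Kr k)) - aN s.R u) u (s.f (lx s.N s.a Kr k)) ∧
      s.f (lx s.N s.a Kr k) ∈ At' s.R s.pn B (aN s.R (s.f (lx s.N s.a Kr k)) - aN s.R u) u := by
  obtain ⟨g1, g2, g3, g4, g5, g6, g7, g8⟩ := win_late hK hA
  have hP := s.run.ok.pth
  have hA' := hA
  obtain ⟨h1, h2, ⟨i1, h3, h4, h5, h6⟩, h7⟩ := hA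
  have hkN : k ≤ s.N := by omega
  have e1 := a_le_add s h1.le hkN
  have hfk := f_le s k
  have e2 : s.a i ≤ aN s.R u := H833.aN_mono hP u0 (by omega)
  have e3 : aN s.R u ≤ s.a k := H833.aN_mono hP u1 (hfk.trans (Nat.le_add_right _ _))
  refine ⟨win_ix hB hS hA' u0 (by omega) (by omega), win_ix hB hS hA' (by omega) (by omega) (by omega), by omega,
    by omega, ?_⟩
  exact win_at s (z0 := s.a i) (z1 := s.a k + Lk) (by omega) (fun z g1 g2 g3 => (h7 z g1 g2).1 (hS g3)) e2 (by omega)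
    (by omega) (by omega) g6 (by omega)

/-- **the pairs `(f j + 1, y)`** -/
theorem win_y (hB : 1 ≤ B) (hK : 0 < Kr) (hKL : Kr ≤ Lk) (hL : L1 + Kr ≤ L) (hS : SwL s.R B s.Vs s.Xs L ⊆ Sw)
    (hA : WAt s.N s.a (fun z => z ∉ Sw ∧ s.kd z = c) L1 L2 Lk Kr i k) {j : ℕ} (hij : i ≤ j) (hjk : j < k) :
    s.f j + 1 ≤ s.f (j + 1) ∧ s.f (j + 1) ≤ s.f k ∧ aN s.R (s.f j + 1) = s.a (j + 1) ∧
      IdxOk s c (s.f j + 1) ∧ IdxOk s c (s.f (lx s.N s.a Kr k)) ∧ s.f j + 1 < s.f (lx s.N s.a Kr k) ∧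
      aN s.R (s.f (lx s.N s.a Kr k)) - aN s.R (s.f j + 1) ≤ L1 + Kr ∧
      At s.R s.pn B (aN s.R (s.f (lx s.N s.a Kr k)) - aN s.R (s.f j + 1)) (s.f j + 1) (s.f (lx s.N s.a Kr k)) ∧
      s.f (lx s.N s.a Kr k) ∈ At' s.R s.pn B (aN s.R (s.f (lx s.N s.a Kr k)) - aN s.R (s.f j + 1)) (s.f j + 1) := by
  have hkN : k ≤ s.N := by
    obtain ⟨h1, h2, ⟨i1, h3, h4, h5, h6⟩, h7⟩ := hA
    omega
  have e1 : s.f j < s.f (j + 1) := f_lt s (show j < j + 1 by omega) (by omega)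
  have e2 : s.f (j + 1) ≤ s.f k := s.hf hjk
  have e3 : s.f i ≤ s.f j := s.hf hij
  obtain ⟨g1, g2, g3, g4, g5⟩ := win_u hB hK hKL hL hS hA (u := s.f j + 1) (by omega) (by omega)
  exact ⟨e1, e2, aN_f1 s (by omega), g1, g2, g3, g4, g5⟩

/-- **the pairs `(f j, y)`** -/
theorem win_y' (hB : 1 ≤ B) (hK : 0 < Kr) (hKL : Kr ≤ Lk) (hL : L1 + Kr ≤ L) (hS : SwL s.R B s.Vs s.Xs L ⊆ Sw)
    (hA : WAt s.N s.a (fun z => z ∉ Sw ∧ s.kd z = c) L1 L2 Lk Kr i k) {j : ℕ} (hij : i ≤ j) (hjk : j ≤ k) :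
    IdxOk s c (s.f j) ∧ IdxOk s c (s.f (lx s.N s.a Kr k)) ∧ s.f j < s.f (lx s.N s.a Kr k) ∧
      aN s.R (s.f (lx s.N s.a Kr k)) - aN s.R (s.f j) ≤ L1 + Kr ∧
      At s.R s.pn B (aN s.R (s.f (lx s.N s.a Kr k)) - aN s.R (s.f j)) (s.f j) (s.f (lx s.N s.a Kr k)) ∧
      s.f (lx s.N s.a Kr k) ∈ At' s.R s.pn B (aN s.R (s.f (lx s.N s.a Kr k)) - aN s.R (s.f j)) (s.f j) :=
  win_u hB hK hKL hL hS hA (s.hf hij) (s.hf hjk)

end win

end Vale.Agent.P106.U.H336
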